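import Mathlib
import Crest.Prelude.Def_QuadricBundle

/-!
# TEAM QUADRIC (S0396): explicit data

`E ⊂ O(6,0) ⊕ O(0,6)` on `ℙ¹ × ℙ¹` is the bundle of pairs `(f(x), g(y))` with
`g (A_i x) = f x` on the three graphs `y = A_i x`, `A_1 = 1`, `A_2 = diag(1, ζ)`,
`A_3 = [[3ζ-2, ζ], [6, 3-2ζ]]` (acting on column vectors `(x0, x1)`, `x = x1/x0`), `ζ = e^{iπ/3}`.
Over `{x-chart i} × ℙ¹` it has the frame `e = (1, h_i)`, `w = (0, γ_i)`.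
-/

set_option autoImplicit false

namespace Crest.Agent.Quadric

open Complex Crest.AlgGeometry.QuadricBundle
open scoped ComplexConjugate ContDiff

noncomputable section

/-- primitive sixth root of unity -/
def ζ : ℂ := ⟨1/2, Real.sqrt 3 / 2⟩

lemma zeta_sq : ζ ^ 2 = ζ - 1 := by
  have h : Real.sqrt 3 * Real.sqrt 3 = 3 := Real.mul_self_sqrt (by norm_num)
  apply Complex.ext
  · simp [ζ, pow_two]; nlinarith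
  · simp [ζ, pow_two]; ring

lemma zeta_rel : ζ ^ 2 - ζ + 1 = 0 := by rw [zeta_sq]; ring

lemma zeta_cube : ζ ^ 3 = -1 := by linear_combination (ζ + 1) * zeta_rel

lemma zeta_pow_six : ζ ^ 6 = 1 := by
  have := zeta_cube
  linear_combination (ζ ^ 3 - 1) * this

lemma zeta_ne_zero : ζ ≠ 0 := by
  intro h
  have := zeta_rel
  rw [h] at this
  norm_num at this

lemma zeta_ne_one : ζ ≠ 1 := by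
  intro h
  have := zeta_rel
  rw [h] at this
  norm_num at this

lemma zeta_conj : conj ζ = 1 - ζ := by
  apply Complex.ext
  · simp [ζ]; norm_num
  · simp [ζ]

lemma zeta_inv : ζ⁻¹ = 1 - ζ := by
  apply inv_eq_of_mul_eq_one_left
  linear_combination -zeta_rel

lemma zeta_eq_exp : ζ = Complex.exp (Real.pi / 3 * I) := by
  rw [Complex.exp_mul_I]
  have h1 : (Real.pi / 3 : ℂ) = ((Real.pi / 3 : ℝ) : ℂ) := by push_cast; ring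
  rw [h1, ← Complex.ofReal_cos, ← Complex.ofReal_sin, Real.cos_pi_div_three,
    Real.sin_pi_div_three]
  apply Complex.ext <;> simp [ζ]

/-! ## chart `x = x1/x0` (chart 0): homogeneous forms in `(y0, y1)` over `ℂ[x]` -/

/-- `(A_3 (1,x))_0` -/
def rho (x : ℂ) : ℂ := (3 * ζ - 2) + ζ * x
/-- `(A_3 (1,x))_1` -/
def sig (x : ℂ) : ℂ := 6 + (3 - 2 * ζ) * x
/-- product of the equations of the three graphs -/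
def gamH0 (x y0 y1 : ℂ) : ℂ := (y1 - x * y0) * (y1 - ζ * x * y0) * (rho x * y1 - sig x * y0)
/-- the form `h` of degree 6 in `y`, equal to 1 at `(1,x)`, `(1,ζx)`, `(ρ,σ)` -/
def hH0 (x y0 y1 : ℂ) : ℂ :=
  y0 ^ 6 + (y1 - x * y0) * (y1 - ζ * x * y0) *
    ((-1 + 10 * ζ) + (3 + 4 * ζ) * x + x ^ 2) * ((1 - 3 * ζ) * y0 - y1) ^ 4

/-! ## chart `x' = x0/x1` (chart 1) -/

/-- `(A_3 (x',1))_0` -/
def rho1 (x : ℂ) : ℂ := (3 * ζ - 2) * x + ζ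
/-- `(A_3 (x',1))_1` -/
def sig1 (x : ℂ) : ℂ := 6 * x + (3 - 2 * ζ)
def gamH1 (x y0 y1 : ℂ) : ℂ := (x * y1 - y0) * (x * y1 - ζ * y0) * (rho1 x * y1 - sig1 x * y0)
/-- the form `h` of degree 6 in `y`, equal to 1 at `(x',1)`, `(x',ζ)`, `(ρ',σ')` -/
def hH1 (x y0 y1 : ℂ) : ℂ :=
  y1 ^ 6 + (x * y1 - y0) * (x * y1 - ζ * y0) *
    ((-324 + 360 * ζ) + (-1512 + 864 * ζ) * x - 1296 * x ^ 2) *
      ((-6 + 6 * ζ) * y0 + (1 + 2 * ζ) * y1) ^ 4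

/-- `x⁴ τ(x; y0, y1)` as a polynomial -/
def tauP (x y0 y1 : ℂ) : ℂ :=
    x^0 * ((-279936 + 279936*ζ) * (y0^3) + (139968 + 279936*ζ) * (y0^2*y1) + (186624 - 116640*ζ) * (y0*y1^2) + (1296 - 24624*ζ) * (y1^3))
    + x^1 * ((-93312 + 186624*ζ) * (y0^3) + (194400 + 46656*ζ) * (y0^2*y1) + (90720 - 108864*ζ) * (y0*y1^2) + (-8424 - 9288*ζ) * (y1^3))
    + x^2 * ((-7776 + 7776*ζ) * (y0^3) + (5184 + 7776*ζ) * (y0^2*y1) + (6048 - 4752*ζ) * (y0*y1^2) + (-252 - 756*ζ) * (y1^3))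
    + x^3 * ((1296 - 3888*ζ) * (y0^3) + (-4968 + 432*ζ) * (y0^2*y1) + (-1296 + 2556*ζ) * (y0*y1^2) + (324 + 36*ζ) * (y1^3))
    + x^4 * ((648 + 1080*ζ) * (y0^3) + (2232 - 1656*ζ) * (y0^2*y1) + (-192 - 774*ζ) * (y0*y1^2) + (-149 + 87*ζ) * (y1^3))
    + x^5 * ((-684 + 36*ζ) * (y0^3) + (-534 + 972*ζ) * (y0^2*y1) + (322 + 56*ζ) * (y0*y1^2) + (39 - 55*ζ) * (y1^3))
    + x^6 * ((330 - 234*ζ) * (y0^3) + (-56 - 322*ζ) * (y0^2*y1) + (-162 + 89*ζ) * (y0*y1^2) + (-1 + 19*ζ) * (y1^3))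
    + x^7 * ((-87 + 149*ζ) * (y0^3) + (129 + 32*ζ) * (y0^2*y1) + (46 - 62*ζ) * (y0*y1^2) + (-5 - 3*ζ) * (y1^3))
    + x^8 * ((-6 - 54*ζ) * (y0^3) + (-71 + 36*ζ) * (y0^2*y1) + (-2 + 23*ζ) * (y0*y1^2) + (3 - 1*ζ) * (y1^3))
    + x^9 * ((21 + 7*ζ) * (y0^3) + (22 - 28*ζ) * (y0^2*y1) + (-6 - 4*ζ) * (y0*y1^2) + (-1 + 1*ζ) * (y1^3))
    + x^10 * ((43 + 39*ζ) * (y0^3) + (84 - 70*ζ) * (y0^2*y1) + (-6 - 25*ζ) * (y0*y1^2) + (-4 + 2*ζ) * (y1^3))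
    + x^11 * ((19 - 1*ζ) * (y0^3) + (15 - 24*ζ) * (y0^2*y1) + (-6 - 3*ζ) * (y0*y1^2) + (-1 + 1*ζ) * (y1^3))

/-- the off-diagonal entry of the transition matrix from x-chart 1 to x-chart 0 -/
def tauH (x y0 y1 : ℂ) : ℂ := (x ^ 4)⁻¹ * tauP x y0 y1

set_option maxHeartbeats 4000000 in
lemma tauP_mul (x y0 y1 : ℂ) :
    x ^ 4 * y1 ^ 6 + (y1 - x * y0) * (y1 - ζ * x * y0) *
      ((-324 + 360 * ζ) * x ^ 2 + (-1512 + 864 * ζ) * x - 1296) *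
        ((-6 + 6 * ζ) * y0 + (1 + 2 * ζ) * y1) ^ 4
      = x ^ 10 * hH0 x y0 y1 + tauP x y0 y1 * gamH0 x y0 y1 := by
  unfold hH0 tauP gamH0 rho sig
  linear_combination (
    1296*y1^6 + (-62208*y1^6*ζ) + (-20736*y1^6*ζ^2) + 412128*y0*y1^5 + (-373248*y0*y1^5*ζ)
      + (-248832*y0*y1^5*ζ^2) + 1119744*y0^2*y1^4 + (-1119744*y0^2*y1^4*ζ^2)
      + 1399680*y0^3*y1^3 + 3359232*y0^3*y1^3*ζ + (-2239488*y0^3*y1^3*ζ^2)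
      + (-3359232*y0^4*y1^2) + 5038848*y0^4*y1^2*ζ + (-1679616*y0^4*y1^2*ζ^2) + (-18360*x*y1^6)
      + (-24192*x*y1^6*ζ) + 17280*x*y1^6*ζ^2 + 13824*x*y1^6*ζ^3 + 169776*x*y0*y1^5
      + (-416016*x*y0*y1^5*ζ) + 41472*x*y0*y1^5*ζ^2 + 186624*x*y0*y1^5*ζ^3 + 754272*x*y0^2*y1^4
      + (-1345248*x*y0^2*y1^4*ζ) + (-684288*x*y0^2*y1^4*ζ^2) + 995328*x*y0^2*y1^4*ζ^3
      + 1586304*x*y0^3*y1^3 + 1306368*x*y0^3*y1^3*ζ + (-3732480*x*y0^3*y1^3*ζ^2)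
      + 2612736*x*y0^3*y1^3*ζ^3 + (-4758912*x*y0^4*y1^2) + 3359232*x*y0^4*y1^2*ζ
      + (-6438528*x*y0^4*y1^2*ζ^2) + 3359232*x*y0^4*y1^2*ζ^3 + 3359232*x*y0^5*y1
      + (-1679616*x*y0^5*y1*ζ) + (-3359232*x*y0^5*y1*ζ^2) + 1679616*x*y0^5*y1*ζ^3
      + (-828*x^2*y1^6) + 4608*x^2*y1^6*ζ + 12096*x^2*y1^6*ζ^2 + 5760*x^2*y1^6*ζ^3
      + 11448*x^2*y0*y1^5 + (-68040*x^2*y0*y1^5*ζ) + 48384*x^2*y0*y1^5*ζ^2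
      + 38016*x^2*y0*y1^5*ζ^3 + (-13824*x^2*y0*y1^5*ζ^4) + 77760*x^2*y0^2*y1^4
      + (-237168*x^2*y0^2*y1^4*ζ) + 176256*x^2*y0^2*y1^4*ζ^2 + 165888*x^2*y0^2*y1^4*ζ^3
      + (-165888*x^2*y0^2*y1^4*ζ^4) + (-287712*x^2*y0^3*y1^3) + 769824*x^2*y0^3*y1^3*ζ
      + 746496*x^2*y0^3*y1^3*ζ^2 + 933120*x^2*y0^3*y1^3*ζ^3 + (-746496*x^2*y0^3*y1^3*ζ^4)
      + (-3452544*x^2*y0^4*y1^2) + (-1819584*x^2*y0^4*y1^2*ζ) + 606528*x^2*y0^4*y1^2*ζ^2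
      + 2706048*x^2*y0^4*y1^2*ζ^3 + (-1492992*x^2*y0^4*y1^2*ζ^4) + 3359232*x^2*y0^5*y1
      + (-3359232*x^2*y0^5*y1*ζ) + 559872*x^2*y0^5*y1*ζ^2 + 1959552*x^2*y0^5*y1*ζ^3
      + (-1119744*x^2*y0^5*y1*ζ^4) + (-3359232*x^2*y0^6*ζ) + 5038848*x^2*y0^6*ζ^2
      + (-1679616*x^2*y0^6*ζ^3) + 648*x^3*y1^6 + (-576*x^3*y0*y1^5) + (-3780*x^3*y0*y1^5*ζ)
      + (-16704*x^3*y0*y1^5*ζ^2) + (-17856*x^3*y0*y1^5*ζ^3) + (-5760*x^3*y0*y1^5*ζ^4)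
      + 7344*x^3*y0^2*y1^4 + 99144*x^3*y0^2*y1^4*ζ + 44928*x^3*y0^2*y1^4*ζ^2
      + (-93312*x^3*y0^2*y1^4*ζ^3) + (-55296*x^3*y0^2*y1^4*ζ^4) + (-260496*x^3*y0^3*y1^3)
      + 466560*x^3*y0^3*y1^3*ζ + 347328*x^3*y0^3*y1^3*ζ^2 + (-72576*x^3*y0^3*y1^3*ζ^3)
      + (-145152*x^3*y0^3*y1^3*ζ^4) + (-894240*x^3*y0^4*y1^2) + 69984*x^3*y0^4*y1^2*ζ
      + (-31104*x^3*y0^4*y1^2*ζ^2) + (-435456*x^3*y0^4*y1^2*ζ^3) + 124416*x^3*y0^4*y1^2*ζ^4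
      + 746496*x^3*y0^5*y1 + 1259712*x^3*y0^5*y1*ζ + 2052864*x^3*y0^5*y1*ζ^2
      + (-3499200*x^3*y0^5*y1*ζ^3) + 1026432*x^3*y0^5*y1*ζ^4 + (-3359232*x^3*y0^6*ζ)
      + 8118144*x^3*y0^6*ζ^2 + (-5318784*x^3*y0^6*ζ^3) + 1119744*x^3*y0^6*ζ^4 + (-297*x^4*y1^6)
      + (-954*x^4*y0*y1^5) + (-648*x^4*y0*y1^5*ζ) + 828*x^4*y0^2*y1^4 + 576*x^4*y0^2*y1^4*ζ
      + 4608*x^4*y0^2*y1^4*ζ^2 + 12096*x^4*y0^2*y1^4*ζ^3 + 5760*x^4*y0^2*y1^4*ζ^4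
      + (-648*x^4*y0^3*y1^3) + (-7344*x^4*y0^3*y1^3*ζ) + (-110592*x^4*y0^3*y1^3*ζ^2)
      + 41472*x^4*y0^3*y1^3*ζ^3 + 69120*x^4*y0^3*y1^3*ζ^4 + 19440*x^4*y0^4*y1^2
      + 260496*x^4*y0^4*y1^2*ζ + (-544320*x^4*y0^4*y1^2*ζ^2) + (-279936*x^4*y0^4*y1^2*ζ^3)
      + 311040*x^4*y0^4*y1^2*ζ^4 + 15552*x^4*y0^5*y1 + 894240*x^4*y0^5*y1*ζ
      + 217728*x^4*y0^5*y1*ζ^2 + (-1492992*x^4*y0^5*y1*ζ^3) + 622080*x^4*y0^5*y1*ζ^4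
      + (-746496*x^4*y0^6*ζ) + 2192832*x^4*y0^6*ζ^2 + (-1819584*x^4*y0^6*ζ^3)
      + 466560*x^4*y0^6*ζ^4 + 78*x^5*y1^6 + 729*x^5*y0*y1^5 + 297*x^5*y0*y1^5*ζ
      + 594*x^5*y0^2*y1^4 + 954*x^5*y0^2*y1^4*ζ + 2700*x^5*y0^3*y1^3 + (-828*x^5*y0^3*y1^3*ζ)
      + (-1944*x^5*y0^4*y1^2) + 648*x^5*y0^4*y1^2*ζ + (-7776*x^5*y0^5*y1)
      + (-19440*x^5*y0^5*y1*ζ) + (-15552*x^5*y0^6*ζ) + (-2*x^6*y1^6) + (-291*x^6*y0*y1^5)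
      + (-78*x^6*y0*y1^5*ζ) + (-549*x^6*y0^2*y1^4) + (-729*x^6*y0^2*y1^4*ζ)
      + (-1566*x^6*y0^3*y1^3) + (-594*x^6*y0^3*y1^3*ζ) + (-2196*x^6*y0^4*y1^2)
      + (-2700*x^6*y0^4*y1^2*ζ) + 2160*x^6*y0^5*y1 + 1944*x^6*y0^5*y1*ζ + 7776*x^6*y0^6*ζ
      + (-10*x^7*y1^6) + 61*x^7*y0*y1^5 + 2*x^7*y0*y1^5*ζ + 261*x^7*y0^2*y1^4
      + 291*x^7*y0^2*y1^4*ζ + 550*x^7*y0^3*y1^3 + 550*x^7*y0^3*y1^3*ζ + 1746*x^7*y0^4*y1^2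
      + 1566*x^7*y0^4*y1^2*ζ + 72*x^7*y0^5*y1 + 2196*x^7*y0^5*y1*ζ + (-2160*x^7*y0^6*ζ)
      + 6*x^8*y1^6 + 9*x^8*y0*y1^5 + 10*x^8*y0*y1^5*ζ + (-75*x^8*y0^2*y1^4)
      + (-61*x^8*y0^2*y1^4*ζ) + (-99*x^8*y0^3*y1^3) + (-261*x^8*y0^3*y1^3*ζ)
      + (-729*x^8*y0^4*y1^2) + (-549*x^8*y0^4*y1^2*ζ) + (-468*x^8*y0^5*y1)
      + (-1746*x^8*y0^5*y1*ζ) + (-72*x^8*y0^6*ζ) + (-2*x^9*y1^6) + (-15*x^9*y0*y1^5)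
      + (-6*x^9*y0*y1^5*ζ) + 3*x^9*y0^2*y1^4 + (-9*x^9*y0^2*y1^4*ζ) + (-23*x^9*y0^3*y1^3)
      + 75*x^9*y0^3*y1^3*ζ + 159*x^9*y0^4*y1^2 + 99*x^9*y0^4*y1^2*ζ + 297*x^9*y0^5*y1
      + 729*x^9*y0^5*y1*ζ + 468*x^9*y0^6*ζ + (-7*x^10*y1^6) + (-41*x^10*y0*y1^5)
      + 2*x^10*y0*y1^5*ζ + 129*x^10*y0^2*y1^4 + (-525*x^10*y0^2*y1^4*ζ) + 650*x^10*y0^3*y1^3
      + 105*x^10*y0^3*y1^3*ζ + (-1080*x^10*y0^3*y1^3*ζ^2) + 361*x^10*y0^4*y1^2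
      + 536*x^10*y0^4*y1^2*ζ + 351*x^10*y0^4*y1^2*ζ^2 + (-810*x^10*y0^4*y1^2*ζ^3)
      + (-108*x^10*y0^5*y1) + (-159*x^10*y0^5*y1*ζ) + (-1*x^10*y0^6) + (-298*x^10*y0^6*ζ)
      + (-5*x^11*y1^6) + (-11*x^11*y0*y1^5) + 7*x^11*y0*y1^5*ζ + 1*x^11*y0^2*y1^4
      + (-175*x^11*y0^2*y1^4*ζ) + 272*x^11*y0^3*y1^3 + 87*x^11*y0^3*y1^3*ζ
      + 108*x^11*y0^3*y1^3*ζ^2 + (-412*x^11*y0^4*y1^2) + (-461*x^11*y0^4*y1^2*ζ)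
      + 837*x^11*y0^4*y1^2*ζ^2 + 756*x^11*y0^4*y1^2*ζ^3 + (-322*x^11*y0^5*y1)
      + (-874*x^11*y0^5*y1*ζ) + (-864*x^11*y0^5*y1*ζ^2) + 459*x^11*y0^5*y1*ζ^3
      + 810*x^11*y0^5*y1*ζ^4 + 108*x^11*y0^6*ζ + (-1*x^12*y1^6) + 6*x^12*y0*y1^5
      + 5*x^12*y0*y1^5*ζ + (-6*x^12*y0^2*y1^4) + 11*x^12*y0^2*y1^4*ζ + 91*x^12*y0^3*y1^3
      + 107*x^12*y0^3*y1^3*ζ + 216*x^12*y0^3*y1^3*ζ^2 + (-336*x^12*y0^4*y1^2)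
      + 79*x^12*y0^4*y1^2*ζ + 135*x^12*y0^4*y1^2*ζ^2 + 432*x^12*y0^4*y1^2*ζ^3
      + (-240*x^12*y0^5*y1) + 115*x^12*y0^5*y1*ζ + (-54*x^12*y0^5*y1*ζ^2)
      + (-621*x^12*y0^5*y1*ζ^3) + 324*x^12*y0^5*y1*ζ^4 + 322*x^12*y0^6*ζ + 513*x^12*y0^6*ζ^2
      + 351*x^12*y0^6*ζ^3 + (-810*x^12*y0^6*ζ^4) + 1*x^13*y0*y1^5 + 1*x^13*y0*y1^5*ζ
      + (-1*x^13*y0^2*y1^4) + (-6*x^13*y0^2*y1^4*ζ) + 24*x^13*y0^3*y1^3 + 6*x^13*y0^3*y1^3*ζ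
      + (-49*x^13*y0^4*y1^2) + 17*x^13*y0^4*y1^2*ζ + (-108*x^13*y0^4*y1^2*ζ^2)
      + (-56*x^13*y0^5*y1) + 309*x^13*y0^5*y1*ζ + (-270*x^13*y0^5*y1*ζ^2)
      + (-351*x^13*y0^5*y1*ζ^3) + 240*x^13*y0^6*ζ + 297*x^13*y0^6*ζ^2 + (-135*x^13*y0^6*ζ^3)
      + (-324*x^13*y0^6*ζ^4) + (-1*x^14*y0^2*y1^4*ζ) + 1*x^14*y0^3*y1^3*ζ
      + (-24*x^14*y0^4*y1^2*ζ) + 49*x^14*y0^5*y1*ζ + (-108*x^14*y0^5*y1*ζ^2) + 56*x^14*y0^6*ζ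
      + 27*x^14*y0^6*ζ^2 + (-81*x^14*y0^6*ζ^3)
    ) * zeta_rel

/-- the defining relation of `τ`: `h_1 = x⁶ h_0 + τ γ_0` -/
lemma tau_rel (x y0 y1 : ℂ) (hx : x ≠ 0) :
    hH1 x⁻¹ y0 y1 = x ^ 6 * hH0 x y0 y1 + tauH x y0 y1 * gamH0 x y0 y1 := by
  have h := tauP_mul x y0 y1
  have h1 : x ^ 4 * hH1 x⁻¹ y0 y1 = x ^ 4 * y1 ^ 6 + (y1 - x * y0) * (y1 - ζ * x * y0) *
      ((-324 + 360 * ζ) * x ^ 2 + (-1512 + 864 * ζ) * x - 1296) *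
        ((-6 + 6 * ζ) * y0 + (1 + 2 * ζ) * y1) ^ 4 := by
    unfold hH1
    field_simp
  have hx4 : x ^ 4 ≠ 0 := pow_ne_zero _ hx
  apply mul_left_cancel₀ hx4
  rw [h1, h]
  unfold tauH
  field_simp

/-- `γ_1(1/x) = x⁻³ γ_0(x)` -/
lemma gam_rel (x y0 y1 : ℂ) (hx : x ≠ 0) :
    gamH1 x⁻¹ y0 y1 = (x ^ 3)⁻¹ * gamH0 x y0 y1 := by
  unfold gamH1 gamH0 rho1 sig1 rho sig
  field_simp

/-! ## values of `h` on the graphs -/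

lemma hH0_v1 (x : ℂ) : hH0 x 1 x = 1 := by unfold hH0; ring
lemma hH0_v2 (x : ℂ) : hH0 x 1 (ζ * x) = 1 := by unfold hH0; ring

set_option maxHeartbeats 4000000 in
lemma hH0_v3 (x : ℂ) : hH0 x (rho x) (sig x) = 1 := by
  unfold hH0 rho sig
  linear_combination (
    (-147393) + 1990143*ζ + (-6279120*ζ^2) + 12638673*ζ^3 + (-15745671*ζ^4) + 13830588*ζ^5
      + (-7322076*ζ^6) + 2361960*ζ^7 + 24576*x + 4776768*x*ζ + (-17714592*x*ζ^2)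
      + 39096432*x*ζ^3 + (-51954372*x*ζ^4) + 47156094*x*ζ^5 + (-25303590*x*ζ^6) + 6429780*x*ζ^7
      + 1692738*x*ζ^8 + (-1180980*x*ζ^9) + 920064*x^2 + 3175296*x^2*ζ + (-17803560*x^2*ζ^2)
      + 45546840*x^2*ζ^3 + (-64534779*x^2*ζ^4) + 57977370*x^2*ζ^5 + (-26475093*x^2*ζ^6)
      + (-2130138*x^2*ζ^7) + 11188692*x^2*ζ^8 + (-6475707*x^2*ζ^9) + 984150*x^2*ζ^10
      + 1570944*x^3 + (-1205712*x^3*ζ) + (-6163816*x^3*ζ^2) + 24591312*x^3*ζ^3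
      + (-39599667*x^3*ζ^4) + 34570395*x^3*ζ^5 + (-9501786*x^3*ζ^6) + (-14362758*x^3*ζ^7)
      + 18948897*x^3*ζ^8 + (-10714113*x^3*ζ^9) + 2230740*x^3*ζ^10 + 1251996*x^4
      + (-2919516*x^4*ζ) + 2005926*x^4*ζ^2 + 4807740*x^4*ζ^3 + (-12603093*x^4*ζ^4)
      + 11047347*x^4*ζ^5 + 870993*x^4*ζ^6 + (-13513716*x^4*ζ^7) + 15036354*x^4*ζ^8
      + (-8673642*x^4*ζ^9) + 2156382*x^4*ζ^10 + 560988*x^5 + (-1827138*x^5*ζ) + 2570986*x^5*ζ^2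
      + (-1115004*x^5*ζ^3) + (-2016774*x^5*ζ^4) + 2513511*x^5*ζ^5 + 886572*x^5*ζ^6
      + (-5552226*x^5*ζ^7) + 6458778*x^5*ζ^8 + (-3953367*x^5*ζ^9) + 1151820*x^5*ζ^10
      + 145557*x^6 + (-585594*x^6*ζ) + 966822*x^6*ζ^2 + (-732515*x^6*ζ^3) + (-312410*x^6*ζ^4)
      + 945810*x^6*ζ^5 + (-417906*x^6*ζ^6) + (-857412*x^6*ζ^7) + 1476657*x^6*ζ^8
      + (-1037610*x^6*ζ^9) + 366930*x^6*ζ^10 + 20493*x^7 + (-101817*x^7*ζ) + 175662*x^7*ζ^2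
      + (-117732*x^7*ζ^3) + (-149769*x^7*ζ^4) + 399789*x^7*ζ^5 + (-378702*x^7*ζ^6)
      + 119718*x^7*ζ^7 + 126117*x^7*ζ^8 + (-142479*x^7*ζ^9) + 69660*x^7*ζ^10 + 1215*x^8
      + (-8667*x^8*ζ) + 14472*x^8*ζ^2 + (-27*x^8*ζ^3) + (-45252*x^8*ζ^4) + 96471*x^8*ζ^5
      + (-103599*x^8*ζ^6) + 67716*x^8*ζ^7 + (-15012*x^8*ζ^8) + (-5346*x^8*ζ^9) + 7290*x^8*ζ^10
      + (-243*x^9*ζ) + 324*x^9*ζ^2 + 1512*x^9*ζ^3 + (-5778*x^9*ζ^4) + 11259*x^9*ζ^5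
      + (-12582*x^9*ζ^6) + 9774*x^9*ζ^7 + (-4050*x^9*ζ^8) + 891*x^9*ζ^9 + 324*x^9*ζ^10
      + 81*x^10*ζ^3 + (-243*x^10*ζ^4) + 486*x^10*ζ^5 + (-567*x^10*ζ^6) + 486*x^10*ζ^7
      + (-243*x^10*ζ^8) + 81*x^10*ζ^9
    ) * zeta_rel

lemma hH1_v1 (x : ℂ) : hH1 x x 1 = 1 := by unfold hH1; ring
lemma hH1_v2 (x : ℂ) : hH1 x x ζ = 1 := by
  unfold hH1
  have := zeta_pow_six
  linear_combination this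

set_option maxHeartbeats 4000000 in
lemma hH1_v3 (x : ℂ) : hH1 x (rho1 x) (sig1 x) = 1 := by
  unfold hH1 rho1 sig1
  linear_combination (
    728 + (-2188*ζ) + 1944*ζ^2 + (-26432*ζ^3) + 72928*ζ^4 + (-118944*ζ^5) + 134784*ζ^6
      + (-104832*ζ^7) + 61632*ζ^8 + (-22464*ζ^9) + 5760*ζ^10 + 8748*x + 58320*x*ζ
      + (-77760*x*ζ^2) + (-966816*x*ζ^3) + 3007584*x*ζ^4 + (-5254272*x*ζ^5) + 6069312*x*ζ^6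
      + (-4898304*x*ζ^7) + 2886336*x*ζ^8 + (-1082880*x*ζ^9) + 267264*x*ζ^10 + (-349920*x^2)
      + 3828708*x^2*ζ + (-5697864*x^2*ζ^2) + (-11459232*x^2*ζ^3) + 50083488*x^2*ζ^4
      + (-96275520*x^2*ζ^5) + 115110720*x^2*ζ^6 + (-96232320*x^2*ζ^7) + 56930688*x^2*ζ^8
      + (-21860928*x^2*ζ^9) + 5152896*x^2*ζ^10 + (-12427992*x^3) + 79612632*x^3*ζ
      + (-135940032*x^3*ζ^2) + (-197856*x^3*ζ^3) + 407917728*x^3*ζ^4 + (-934989696*x^3*ζ^5)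
      + 1186562304*x^3*ζ^6 + (-1028954880*x^3*ζ^7) + 612596736*x^3*ζ^8 + (-238930560*x^3*ζ^9)
      + 53208576*x^3*ζ^10 + (-167576688*x^4) + 879150672*x^4*ζ + (-1652547744*x^4*ζ^2)
      + 1215412128*x^4*ζ^3 + 1364319936*x^4*ζ^4 + (-5038923168*x^4*ζ^5) + 7132489344*x^4*ζ^6
      + (-6466822272*x^4*ζ^7) + 3888098496*x^4*ζ^8 + (-1524578112*x^4*ζ^9) + 315674496*x^4*ζ^10
      + (-1219891104*x^5) + 5735515392*x^5*ζ + (-11494125504*x^5*ζ^2) + 12360107520*x^5*ζ^3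
      + (-2468942208*x^5*ζ^4) + (-13720316544*x^5*ζ^5) + 24766824384*x^5*ζ^6
      + (-24018135552*x^5*ζ^7) + 14667666624*x^5*ζ^8 + (-5698937088*x^5*ζ^9)
      + 1068235776*x^5*ζ^10 + (-5230277568*x^6) + 22764302208*x^6*ζ + (-47455870464*x^6*ζ^2)
      + 59149590336*x^6*ζ^3 + (-36593047296*x^6*ζ^4) + (-8650302336*x^6*ζ^5)
      + 45192261312*x^6*ζ^6 + (-50093707392*x^6*ζ^7) + 31445770752*x^6*ζ^8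
      + (-11817358272*x^6*ζ^9) + 1897126272*x^6*ζ^10 + (-13400816256*x^7) + 54381767040*x^7*ζ
      + (-115429929984*x^7*ζ^2) + 152779550976*x^7*ζ^3 + (-122698468224*x^7*ζ^4)
      + 43261029504*x^7*ζ^5 + 30039932160*x^7*ζ^6 + (-51350899968*x^7*ζ^7)
      + 34322113152*x^7*ζ^8 + (-11768229504*x^7*ζ^9) + 1360488960*x^7*ζ^10 + (-19863138816*x^8)
      + 74554795008*x^8*ζ + (-157907418624*x^8*ζ^2) + 210467642112*x^8*ζ^3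
      + (-185525344512*x^8*ζ^4) + 99587791872*x^8*ζ^5 + (-15736322304*x^8*ζ^6)
      + (-17686356480*x^8*ζ^7) + 15101427456*x^8*ζ^8 + (-3673320192*x^8*ζ^9)
      + (-15509574144*x^9) + 52786971648*x^9*ζ + (-109383312384*x^9*ζ^2) + 139858265088*x^9*ζ^3
      + (-124348690944*x^9*ζ^4) + 70201230336*x^9*ζ^5 + (-21767823360*x^9*ζ^6)
      + 2448880128*x^9*ζ^8 + (-4897760256*x^10) + 14693280768*x^10*ζ + (-29386561536*x^10*ζ^2)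
      + 34284321792*x^10*ζ^3 + (-29386561536*x^10*ζ^4) + 14693280768*x^10*ζ^5
      + (-4897760256*x^10*ζ^6)
    ) * zeta_rel

/-- homogeneity -/
lemma hH0_smul (x t y0 y1 : ℂ) : hH0 x (t * y0) (t * y1) = t ^ 6 * hH0 x y0 y1 := by
  unfold hH0; ring
lemma hH1_smul (x t y0 y1 : ℂ) : hH1 x (t * y0) (t * y1) = t ^ 6 * hH1 x y0 y1 := by
  unfold hH1; ring
lemma gamH0_smul (x t y0 y1 : ℂ) : gamH0 x (t * y0) (t * y1) = t ^ 3 * gamH0 x y0 y1 := by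
  unfold gamH0; ring
lemma gamH1_smul (x t y0 y1 : ℂ) : gamH1 x (t * y0) (t * y1) = t ^ 3 * gamH1 x y0 y1 := by
  unfold gamH1; ring
lemma tauP_smul (x t y0 y1 : ℂ) : tauP x (t * y0) (t * y1) = t ^ 3 * tauP x y0 y1 := by
  unfold tauP; ring
lemma tauH_smul (x t y0 y1 : ℂ) : tauH x (t * y0) (t * y1) = t ^ 3 * tauH x y0 y1 := by
  unfold tauH; rw [tauP_smul]; ring

/-! ## transition matrices -/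

/-- homogeneous coordinates `(y0, y1)` of the point with coordinate `y` in the y-chart `j` -/
def yv (j : Fin 2) (y : ℂ) : ℂ × ℂ := if j = 0 then (1, y) else (y, 1)

/-- x-part of the transition matrix, at the point with y-coordinate `y` in y-chart `j` -/
def gx (i i' j : Fin 2) (x y : ℂ) : Matrix (Fin 2) (Fin 2) ℂ :=
  if i = i' then 1
  else if i = 0 then !![x ^ 6, 0; tauH x (yv j y).1 (yv j y).2, (x ^ 3)⁻¹]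
  else !![x ^ 6, 0; -(x ^ 3 * tauH x⁻¹ (yv j y).1 (yv j y).2), (x ^ 3)⁻¹]

/-- y-part of the transition matrix -/
def gy (j j' : Fin 2) (y : ℂ) : Matrix (Fin 2) (Fin 2) ℂ :=
  if j = j' then 1 else !![1, 0; 0, y ^ 3]

/-- transition data of `E` -/
def gE : Transition 2 := fun α β p => gx α.1 β.1 α.2 (p 0) (p 1) * gy α.2 β.2 (p 1)

/-- transition data of `f_K^* E ⊗ O(1,1)`, `f_K (x,y) = (x^K, y^K)` -/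
def gK (K : ℕ) : Transition 2 :=
  fun α β p => lineTrans 1 1 α β p • gE α β (fun i => p i ^ K)

/-! ## interface between geometry and analysis (log coordinates `x^K = e^Z`, `y^K = e^W`) -/

/-- Laplacian of a function of one complex variable -/
def lap (F : ℂ → ℝ) (w : ℂ) : ℝ :=
  deriv (deriv (fun t : ℝ => F (w + t))) 0 + deriv (deriv (fun t : ℝ => F (w + t * I))) 0

/-- `N(s₁ ε₁ + s₂ ε₂)` for the Hermitian form with `N(ε₁,ε₁) = a`, `N(ε₁,ε₂) = e`, `N(ε₂,ε₂) = b` -/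
def Nf (a : ℝ) (e : ℂ) (b : ℝ) (s1 s2 : ℂ) : ℝ :=
  ‖s1‖ ^ 2 * a + 2 * (s1 * conj s2 * e).re + ‖s2‖ ^ 2 * b

/-- `h` and `γ` in log coordinates -/
def hL (Z W : ℂ) : ℂ := hH0 (exp Z) 1 (exp W)
def gL (Z W : ℂ) : ℂ := gamH0 (exp Z) 1 (exp W)

/-- Averaged dual metric of `f_K^* E ⊗ O(1,1)` in log coordinates.
`ε₁ : (f,g) ↦ f`, `ε₂ : (f,g) ↦ g` (sections of `E^*`), `ω = (ε₂ - h ε₁)/γ`. -/
structure LogData (K : ℕ) where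
  a : ℂ → ℂ → ℝ
  b : ℂ → ℂ → ℝ
  /-- `n = N(ω, ω)` -/
  n : ℂ → ℂ → ℝ
  /-- `e = N(ε₁, ε₂)` -/
  e : ℂ → ℂ → ℂ
  smooth_a : ContDiff ℝ ∞ (fun p : ℂ × ℂ => a p.1 p.2)
  smooth_b : ContDiff ℝ ∞ (fun p : ℂ × ℂ => b p.1 p.2)
  smooth_n : ContDiff ℝ ∞ (fun p : ℂ × ℂ => n p.1 p.2)
  smooth_e : ContDiff ℝ ∞ (fun p : ℂ × ℂ => e p.1 p.2)
  a_pos : ∀ Z W, 0 < a Z W
  b_nonneg : ∀ Z W, 0 ≤ b Z W
  n_nonneg : ∀ Z W, 0 ≤ n Z W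
  cs : ∀ Z W, ‖e Z W‖ ^ 2 ≤ a Z W * b Z W
  per_a1 : ∀ Z W, a (Z + 2 * Real.pi * I) W = a Z W
  per_a2 : ∀ Z W, a Z (W + 2 * Real.pi * I) = a Z W
  per_b1 : ∀ Z W, b (Z + 2 * Real.pi * I) W = b Z W
  per_b2 : ∀ Z W, b Z (W + 2 * Real.pi * I) = b Z W
  per_n1 : ∀ Z W, n (Z + 2 * Real.pi * I) W = n Z W
  per_n2 : ∀ Z W, n Z (W + 2 * Real.pi * I) = n Z W
  per_e1 : ∀ Z W, e (Z + 2 * Real.pi * I) W = e Z W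
  per_e2 : ∀ Z W, e Z (W + 2 * Real.pi * I) = e Z W
  psh1 : ∀ s1 s2 : ℂ → ℂ, Differentiable ℂ s1 → Differentiable ℂ s2 → ∀ Z W,
    0 ≤ lap (fun z => Nf (a z W) (e z W) (b z W) (s1 z) (s2 z)) Z
  psh2 : ∀ s1 s2 : ℂ → ℂ, Differentiable ℂ s1 → Differentiable ℂ s2 → ∀ Z W,
    0 ≤ lap (fun w => Nf (a Z w) (e Z w) (b Z w) (s1 w) (s2 w)) W
  psh1_n : ∀ Z W, 0 ≤ lap (fun z => n z W) Z
  psh2_n : ∀ Z W, 0 ≤ lap (fun w => n Z w) W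
  rel : ∀ Z W, ‖gL Z W‖ ^ 2 * n Z W = Nf (a Z W) (e Z W) (b Z W) (-(hL Z W)) 1
  a_bot1 : ∀ τ : ℝ, ∃ C, ∀ Z W, W.re = τ → Z.re ≤ 0 → a Z W ≤ C
  a_top1 : ∀ τ : ℝ, ∃ C, ∀ Z W, W.re = τ → 0 ≤ Z.re → a Z W ≤ C * Real.exp ((12 + 2 / K) * Z.re)
  a_bot2 : ∀ t : ℝ, ∃ C, ∀ Z W, Z.re = t → W.re ≤ 0 → a Z W ≤ C
  a_top2 : ∀ t : ℝ, ∃ C, ∀ Z W, Z.re = t → 0 ≤ W.re → a Z W ≤ C * Real.exp ((2 / K) * W.re)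
  b_bot1 : ∀ τ : ℝ, ∃ C, ∀ Z W, W.re = τ → Z.re ≤ 0 → b Z W ≤ C
  b_top1 : ∀ τ : ℝ, ∃ C, ∀ Z W, W.re = τ → 0 ≤ Z.re → b Z W ≤ C * Real.exp ((2 / K) * Z.re)
  b_bot2 : ∀ t : ℝ, ∃ C, ∀ Z W, Z.re = t → W.re ≤ 0 → b Z W ≤ C
  b_top2 : ∀ t : ℝ, ∃ C, ∀ Z W, Z.re = t → 0 ≤ W.re → b Z W ≤ C * Real.exp ((12 + 2 / K) * W.re)

/-
TARGETS
(A1) theorem gK_cocycle (K : ℕ) (hK : 1 ≤ K) : IsHoloCocycle (gK K)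
(A2) theorem gK_ample (K : ℕ) (hK : 1 ≤ K) : IsAmple (gK K)
(B)  theorem logData_of_griffiths (K : ℕ) (hK : 1 ≤ K) (H : MetricData 2)
       (hH : IsHermitianMetric (gK K) H) (hG : IsGriffithsPositive H) : Nonempty (LogData K)
(C)  theorem no_logData (h : ∀ K : ℕ, 1 ≤ K → Nonempty (LogData K)) : False
-/

end

end Crest.Agent.Quadric
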